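import Claimed.Agent.R285.Base.RG

/-!
# ROW 285, package PK-ALG ([B] P4.8, exact identity), file 1: connected components of block sets      (architect helper165)

Everything is stated for a grid `g : Grid G`, but only uses that `g.idist` is symmetric, vanishes on the diagonal and satisfies the triangle inequality.
KEY TOOL: `mult_eq_prod` : an `R`-multiplicative set function is the product of its values on the `R`-components.  All three steps of P4.8 are reduced to BINARY
multiplicativity statements by it; no bijection with dependent products is ever needed.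
-/

set_option autoImplicit false

namespace Claimed.Agent.R285.Alg

open scoped BigOperators
open Claimed.Agent.R285.RG
open Classical

variable {G : Geom} (g : Grid G)

theorem idist1_comm (a b : Fin g.n) : g.idist1 a b = g.idist1 b a := by
  unfold Grid.idist1
  have h : ((a : ℤ) - b).natAbs = ((b : ℤ) - a).natAbs := by omega
  cases G.bc <;> simp [h]

theorem idist_comm (a b : g.I) : g.idist a b = g.idist b a := by
  unfold Grid.idist
  rw [idist1_comm g a.1 b.1, idist1_comm g a.2 b.2]

theorem idist1_self (a : Fin g.n) : g.idist1 a a = 0 := by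
  unfold Grid.idist1
  cases G.bc <;> simp

theorem idist_self (a : g.I) : g.idist a a = 0 := by
  unfold Grid.idist
  simp [idist1_self]

theorem idist1_triangle (a b c : Fin g.n) : g.idist1 a c ≤ g.idist1 a b + g.idist1 b c := by
  unfold Grid.idist1
  have ha := a.2
  have hb := b.2
  have hc := c.2
  cases G.bc <;> simp only <;> omega

theorem idist_triangle (a b c : g.I) : g.idist a c ≤ g.idist a b + g.idist b c := by
  unfold Grid.idist
  have h1 := idist1_triangle g a.1 b.1 c.1
  have h2 := idist1_triangle g a.2 b.2 c.2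
  omega

variable {g} {R : ℕ}

theorem mem_comps {V X : Finset g.I} :
    X ∈ g.comps R V ↔ X ⊆ V ∧ g.Conn R X ∧ ∀ a ∈ X, ∀ b ∈ V, g.idist a b ≤ R → b ∈ X := by
  simp [Grid.comps]

theorem comps_subset {V X : Finset g.I} (h : X ∈ g.comps R V) : X ⊆ V := (mem_comps.1 h).1

theorem comps_conn {V X : Finset g.I} (h : X ∈ g.comps R V) : g.Conn R X := (mem_comps.1 h).2.1

theorem comps_nonempty {V X : Finset g.I} (h : X ∈ g.comps R V) : X.Nonempty := (comps_conn h).1

/-- a component absorbs every path in `V` -/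
theorem comps_path {V X : Finset g.I} (h : X ∈ g.comps R V) {a b : g.I} (ha : a ∈ X)
    (hp : Relation.ReflTransGen (fun u v => u ∈ V ∧ v ∈ V ∧ g.idist u v ≤ R) a b) : b ∈ X := by
  induction hp with
  | refl => exact ha
  | tail _ hstep ih => exact (mem_comps.1 h).2.2 _ ih _ hstep.2.1 hstep.2.2

theorem path_mono {X V : Finset g.I} (hXV : X ⊆ V) {a b : g.I}
    (hp : Relation.ReflTransGen (fun u v => u ∈ X ∧ v ∈ X ∧ g.idist u v ≤ R) a b) :
    Relation.ReflTransGen (fun u v => u ∈ V ∧ v ∈ V ∧ g.idist u v ≤ R) a b :=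
  Relation.ReflTransGen.mono (fun _ _ h => ⟨hXV h.1, hXV h.2.1, h.2.2⟩) _ _ hp

theorem comps_eq_of_mem {V X X' : Finset g.I} (h : X ∈ g.comps R V) (h' : X' ∈ g.comps R V) {a : g.I} (ha : a ∈ X)
    (ha' : a ∈ X') : X = X' := by
  apply Finset.Subset.antisymm
  · intro b hb
    exact comps_path h' ha' (path_mono (comps_subset h) ((comps_conn h).2 a ha b hb))
  · intro b hb
    exact comps_path h ha (path_mono (comps_subset h') ((comps_conn h').2 a ha' b hb))

theorem comps_disjoint {V X X' : Finset g.I} (h : X ∈ g.comps R V) (h' : X' ∈ g.comps R V) (hne : X ≠ X') :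
    Disjoint X X' := by
  rw [Finset.disjoint_left]
  intro a ha ha'
  exact hne (comps_eq_of_mem h h' ha ha')

theorem comps_sep {V X X' : Finset g.I} (h : X ∈ g.comps R V) (h' : X' ∈ g.comps R V) (hne : X ≠ X') :
    g.Sep R X X' := by
  intro a ha b hb
  by_contra hcon
  push Not at hcon
  have hb' : b ∈ X := (mem_comps.1 h).2.2 a ha b (comps_subset h' hb) hcon
  exact hne (comps_eq_of_mem h h' hb' hb)

theorem path_symm (V : Finset g.I) {a b : g.I}
    (hp : Relation.ReflTransGen (fun u v => u ∈ V ∧ v ∈ V ∧ g.idist u v ≤ R) a b) :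
    Relation.ReflTransGen (fun u v => u ∈ V ∧ v ∈ V ∧ g.idist u v ≤ R) b a := by
  induction hp with
  | refl => exact Relation.ReflTransGen.refl
  | tail _ h ih => exact Relation.ReflTransGen.head ⟨h.2.1, h.1, by rw [idist_comm]; exact h.2.2⟩ ih

/-- the component of a point -/
theorem comps_cover {V : Finset g.I} {a : g.I} (ha : a ∈ V) : ∃ X ∈ g.comps R V, a ∈ X := by
  set rV : g.I → g.I → Prop := fun u v => u ∈ V ∧ v ∈ V ∧ g.idist u v ≤ R with hrV
  set X : Finset g.I := V.filter fun b => Relation.ReflTransGen rV a b with hX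
  have haX : a ∈ X := by simp [hX, ha, Relation.ReflTransGen.refl]
  have lift : ∀ b, Relation.ReflTransGen rV a b →
      Relation.ReflTransGen (fun u v => u ∈ X ∧ v ∈ X ∧ g.idist u v ≤ R) a b := by
    intro b hb
    induction hb with
    | refl => exact Relation.ReflTransGen.refl
    | @tail b c hab hbc ih =>
      refine ih.tail ⟨?_, ?_, hbc.2.2⟩
      · simp only [hX, Finset.mem_filter]; exact ⟨hbc.1, hab⟩
      · simp only [hX, Finset.mem_filter]; exact ⟨hbc.2.1, hab.tail hbc⟩
  refine ⟨X, mem_comps.2 ⟨Finset.filter_subset _ _, ⟨⟨a, haX⟩, ?_⟩, ?_⟩, haX⟩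
  · intro b hb c hc
    have hb' := lift b (Finset.mem_filter.1 hb).2
    have hc' := lift c (Finset.mem_filter.1 hc).2
    exact (path_symm X hb').trans hc'
  · intro b hb c hc hbc
    simp only [hX, Finset.mem_filter] at hb ⊢
    exact ⟨hc, hb.2.tail ⟨hb.1, hc, hbc⟩⟩

theorem comps_biUnion (V : Finset g.I) : (g.comps R V).biUnion id = V := by
  ext a
  simp only [Finset.mem_biUnion, id]
  constructor
  · rintro ⟨X, hX, ha⟩
    exact comps_subset hX ha
  · intro ha
    exact comps_cover ha

theorem comps_empty : g.comps R (∅ : Finset g.I) = ∅ := by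
  ext X
  simp only [mem_comps, Finset.notMem_empty, iff_false]
  rintro ⟨h1, h2, -⟩
  obtain ⟨a, ha⟩ := h2.1
  exact absurd (h1 ha) (Finset.notMem_empty a)

theorem comps_self {X : Finset g.I} (h : g.Conn R X) : g.comps R X = {X} := by
  ext Y
  simp only [Finset.mem_singleton]
  constructor
  · intro hY
    have hX : X ∈ g.comps R X := mem_comps.2 ⟨Finset.Subset.refl _, h, fun _ _ b hb _ => hb⟩
    obtain ⟨a, ha⟩ := comps_nonempty hY
    exact comps_eq_of_mem hY hX ha (comps_subset hY ha)
  · rintro rfl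
    exact mem_comps.2 ⟨Finset.Subset.refl _, h, fun _ _ b hb _ => hb⟩

theorem sep_symm {d : ℕ} {X X' : Finset g.I} (h : g.Sep d X X') : g.Sep d X' X := by
  intro a ha b hb
  rw [idist_comm]
  exact h b hb a ha

theorem sep_disjoint {d : ℕ} {X X' : Finset g.I} (h : g.Sep d X X') : Disjoint X X' := by
  rw [Finset.disjoint_left]
  intro a ha ha'
  have := h a ha a ha'
  rw [idist_self] at this
  omega

theorem sep_mono {d : ℕ} {X X' Y Y' : Finset g.I} (h : g.Sep d X X') (hY : Y ⊆ X) (hY' : Y' ⊆ X') : g.Sep d Y Y' :=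
  fun a ha b hb => h a (hY ha) b (hY' hb)

theorem sep_le {d d' : ℕ} {X X' : Finset g.I} (h : g.Sep d X X') (hd : d' ≤ d) : g.Sep d' X X' :=
  fun a ha b hb => lt_of_le_of_lt hd (h a ha b hb)

/-- a connected subset of a separated union lies in one of the two parts -/
theorem conn_sub_of_sep {Y V1 V2 : Finset g.I} (hY : g.Conn R Y) (hsub : Y ⊆ V1 ∪ V2) (hsep : g.Sep R V1 V2) :
    Y ⊆ V1 ∨ Y ⊆ V2 := by
  obtain ⟨a, ha⟩ := hY.1
  have key : ∀ (W1 W2 : Finset g.I), g.Sep R W1 W2 → Y ⊆ W1 ∪ W2 → a ∈ W1 → Y ⊆ W1 := by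
    intro W1 W2 hs hsub' ha1 b hb
    have hp := hY.2 a ha b hb
    induction hp with
    | refl => exact ha1
    | @tail b c _ hbc ih =>
      have hb1 := ih hbc.1
      rcases Finset.mem_union.1 (hsub' hbc.2.1) with h | h
      · exact h
      · exact absurd hbc.2.2 (not_le.2 (hs b hb1 c h))
  rcases Finset.mem_union.1 (hsub ha) with h | h
  · exact Or.inl (key V1 V2 hsep hsub h)
  · exact Or.inr (key V2 V1 (sep_symm hsep) (by rwa [Finset.union_comm]) h)

theorem comps_union {V1 V2 : Finset g.I} (h : g.Sep R V1 V2) :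
    g.comps R (V1 ∪ V2) = g.comps R V1 ∪ g.comps R V2 := by
  ext X
  simp only [Finset.mem_union]
  constructor
  · intro hX
    obtain ⟨hs, hc, hcl⟩ := mem_comps.1 hX
    rcases conn_sub_of_sep hc hs h with h1 | h2
    · exact Or.inl (mem_comps.2 ⟨h1, hc, fun a ha b hb => hcl a ha b (Finset.mem_union_left _ hb)⟩)
    · exact Or.inr (mem_comps.2 ⟨h2, hc, fun a ha b hb => hcl a ha b (Finset.mem_union_right _ hb)⟩)
  · rintro (hX | hX)
    · obtain ⟨hs, hc, hcl⟩ := mem_comps.1 hX
      refine mem_comps.2 ⟨hs.trans Finset.subset_union_left, hc, fun a ha b hb hab => ?_⟩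
      rcases Finset.mem_union.1 hb with hb | hb
      · exact hcl a ha b hb hab
      · exact absurd hab (not_le.2 (h a (hs ha) b hb))
    · obtain ⟨hs, hc, hcl⟩ := mem_comps.1 hX
      refine mem_comps.2 ⟨hs.trans Finset.subset_union_right, hc, fun a ha b hb hab => ?_⟩
      rcases Finset.mem_union.1 hb with hb | hb
      · exact absurd hab (not_le.2 (sep_symm h a (hs ha) b hb))
      · exact hcl a ha b hb hab

theorem comps_union_disjoint {V1 V2 : Finset g.I} (h : g.Sep R V1 V2) : Disjoint (g.comps R V1) (g.comps R V2) := by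
  rw [Finset.disjoint_left]
  intro X h1 h2
  obtain ⟨a, ha⟩ := comps_nonempty h1
  exact Finset.disjoint_left.1 (sep_disjoint h) (comps_subset h1 ha) (comps_subset h2 ha)

/-- a component is separated from the rest -/
theorem comps_sep_sdiff {V X : Finset g.I} (h : X ∈ g.comps R V) : g.Sep R X (V \ X) := by
  intro a ha b hb
  by_contra hcon
  push Not at hcon
  exact (Finset.mem_sdiff.1 hb).2 ((mem_comps.1 h).2.2 a ha b (Finset.mem_sdiff.1 hb).1 hcon)

variable {𝔸 : Type} [CommRing 𝔸]

/-- products over components are multiplicative -/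
theorem prod_comps_union (f : Finset g.I → 𝔸) {V1 V2 : Finset g.I} (h : g.Sep R V1 V2) :
    ∏ X ∈ g.comps R (V1 ∪ V2), f X = (∏ X ∈ g.comps R V1, f X) * ∏ X ∈ g.comps R V2, f X := by
  rw [comps_union h, Finset.prod_union (comps_union_disjoint h)]

/-- **KEY TOOL**: an `R`-multiplicative set function is the product of its values on the components -/
theorem mult_eq_prod (W : Finset g.I → 𝔸) (h1 : W ∅ = 1)
    (hm : ∀ V1 V2, g.Sep R V1 V2 → W (V1 ∪ V2) = W V1 * W V2) (V : Finset g.I) :
    W V = ∏ Y ∈ g.comps R V, W Y := by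
  induction' hn : V.card using Nat.strong_induction_on with n ih generalizing V
  rcases V.eq_empty_or_nonempty with rfl | ⟨a, ha⟩
  · simp [comps_empty, h1]
  · obtain ⟨X, hX, haX⟩ := comps_cover (R := R) ha
    have hsep := comps_sep_sdiff hX
    have hV : V = X ∪ (V \ X) := by
      rw [Finset.union_sdiff_of_subset (comps_subset hX)]
    have hcard : (V \ X).card < n := by
      rw [← hn]
      exact Finset.card_lt_card (Finset.sdiff_ssubset (comps_subset hX) ⟨a, haX⟩)
    conv_lhs => rw [hV]
    conv_rhs => rw [hV]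
    rw [hm _ _ hsep, prod_comps_union _ hsep, comps_self (comps_conn hX), Finset.prod_singleton,
      ih _ hcard _ rfl]

/-- the partition functional of an activity which is the restriction of a multiplicative function -/
theorem ZA_of_mult (K W : Finset g.I → 𝔸) (h1 : W ∅ = 1)
    (hm : ∀ V1 V2, g.Sep R V1 V2 → W (V1 ∪ V2) = W V1 * W V2) (hK : ∀ Y, g.Conn R Y → K Y = W Y) :
    ZA g R K = ∑ V : Finset g.I, W V := by
  unfold ZA
  refine Finset.sum_congr rfl fun V _ => ?_
  rw [mult_eq_prod W h1 hm V]
  exact Finset.prod_congr rfl fun Y hY => hK Y (comps_conn hY)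

/-- sums over subsets of a disjoint union -/
theorem sum_powerset_union {J : Type} [DecidableEq J] {M : Type} [AddCommMonoid M] (A B : Finset J) (hAB : Disjoint A B)
    (f : Finset J → M) :
    ∑ T ∈ (A ∪ B).powerset, f T = ∑ T1 ∈ A.powerset, ∑ T2 ∈ B.powerset, f (T1 ∪ T2) := by
  rw [← Finset.sum_product']
  refine Finset.sum_nbij' (fun T => (T ∩ A, T ∩ B)) (fun q => q.1 ∪ q.2) ?_ ?_ ?_ ?_ ?_
  · intro T _
    simp [Finset.inter_subset_right]
  · intro q hq
    simp only [Finset.mem_product, Finset.mem_powerset] at hq ⊢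
    exact Finset.union_subset_union hq.1 hq.2
  · intro T hT
    simp only [Finset.mem_powerset] at hT
    rw [← Finset.inter_union_distrib_left]
    exact Finset.inter_eq_left.2 hT
  · intro q hq
    simp only [Finset.mem_product, Finset.mem_powerset] at hq
    have h1 : q.2 ∩ A = ∅ := Finset.disjoint_iff_inter_eq_empty.1 (Finset.disjoint_of_subset_left hq.2 hAB.symm)
    have h2 : q.1 ∩ B = ∅ := Finset.disjoint_iff_inter_eq_empty.1 (Finset.disjoint_of_subset_left hq.1 hAB)
    ext1
    · simp [Finset.union_inter_distrib_right, h1, Finset.inter_eq_left.2 hq.1]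
    · simp [Finset.union_inter_distrib_right, h2, Finset.inter_eq_left.2 hq.2]
  · intro T hT
    simp only [Finset.mem_powerset] at hT
    rw [← Finset.inter_union_distrib_left, Finset.inter_eq_left.2 hT]

end Claimed.Agent.R285.Alg
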