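import Claimed.Agent.R285.Alg.Comps

/-!
# ROW 285, package PK-ALG, file 3: step 1 of [B] P4.8 (integration and reblocking)      (helper165)
-/

set_option autoImplicit false

namespace Claimed.Agent.R285.Alg

open scoped BigOperators
open Claimed.Agent.R285.RG
open Classical

variable {G : Geom} {𝔸 : Type} [CommRing 𝔸] [Algebra ℂ 𝔸] {D0 ℓ : ℕ} (P : Pair G D0 ℓ) (r R : ℕ)

/-- the part of `V` above `Y` -/
noncomputable def above (V : Finset P.g.I) (Y : Finset P.g'.I) : Finset P.g.I := V.filter fun a => P.N.up a ∈ Y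

variable {P}

theorem cl_above {V : Finset P.g.I} {A : Finset P.g'.I} (h : A ⊆ P.N.cl V) : P.N.cl (above P V A) = A := by
  ext y
  simp only [Nest.cl, above, Finset.mem_image, Finset.mem_filter]
  constructor
  · rintro ⟨a, ⟨_, ha⟩, rfl⟩
    exact ha
  · intro hy
    obtain ⟨a, ha, rfl⟩ := Finset.mem_image.1 (h hy)
    exact ⟨a, ⟨ha, hy⟩, rfl⟩

theorem cl_union (V1 V2 : Finset P.g.I) : P.N.cl (V1 ∪ V2) = P.N.cl V1 ∪ P.N.cl V2 := Finset.image_union _ _

theorem above_union_left {V1 V2 : Finset P.g.I} {A B : Finset P.g'.I} (hAB : Disjoint A B) (h1 : P.N.cl V1 = A)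
    (h2 : P.N.cl V2 = B) {Y : Finset P.g'.I} (hY : Y ⊆ A) : above P (V1 ∪ V2) Y = above P V1 Y := by
  ext a
  simp only [above, Finset.mem_filter, Finset.mem_union]
  constructor
  · rintro ⟨h | h, ha⟩
    · exact ⟨h, ha⟩
    · exfalso
      have : P.N.up a ∈ B := by rw [← h2]; exact Finset.mem_image_of_mem _ h
      exact Finset.disjoint_left.1 hAB (hY ha) this
  · rintro ⟨h, ha⟩
    exact ⟨Or.inl h, ha⟩

theorem above_cl_self {V : Finset P.g.I} {A : Finset P.g'.I} (h : P.N.cl V = A) : above P V A = V := by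
  ext a
  simp only [above, Finset.mem_filter, and_iff_left_iff_imp]
  intro ha
  rw [← h]
  exact Finset.mem_image_of_mem _ ha

/-- sums over fine sets with a given closure, closure = disjoint union -/
theorem sum_cl_union {M : Type} [AddCommMonoid M] (A B : Finset P.g'.I) (hAB : Disjoint A B) (f : Finset P.g.I → M) :
    ∑ V ∈ Finset.univ.filter (fun V : Finset P.g.I => P.N.cl V = A ∪ B), f V
      = ∑ V1 ∈ Finset.univ.filter (fun V : Finset P.g.I => P.N.cl V = A),
          ∑ V2 ∈ Finset.univ.filter (fun V : Finset P.g.I => P.N.cl V = B), f (V1 ∪ V2) := by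
  rw [← Finset.sum_product']
  refine Finset.sum_nbij' (fun V => (above P V A, above P V B)) (fun q => q.1 ∪ q.2) ?_ ?_ ?_ ?_ ?_
  · intro V hV
    simp only [Finset.mem_filter, Finset.mem_univ, true_and] at hV
    simp only [Finset.mem_product, Finset.mem_filter, Finset.mem_univ, true_and]
    exact ⟨cl_above (by rw [hV]; exact Finset.subset_union_left), cl_above (by rw [hV]; exact Finset.subset_union_right)⟩
  · intro q hq
    simp only [Finset.mem_product, Finset.mem_filter, Finset.mem_univ, true_and] at hq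
    simp only [Finset.mem_filter, Finset.mem_univ, true_and]
    rw [cl_union, hq.1, hq.2]
  · intro V hV
    simp only [Finset.mem_filter, Finset.mem_univ, true_and] at hV
    ext a
    simp only [above, Finset.mem_union, Finset.mem_filter]
    constructor
    · rintro (h | h) <;> exact h.1
    · intro ha
      have : P.N.up a ∈ A ∪ B := by rw [← hV]; exact Finset.mem_image_of_mem _ ha
      rcases Finset.mem_union.1 this with h | h
      · exact Or.inl ⟨ha, h⟩
      · exact Or.inr ⟨ha, h⟩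
  · intro q hq
    simp only [Finset.mem_product, Finset.mem_filter, Finset.mem_univ, true_and] at hq
    ext1
    · show above P (q.1 ∪ q.2) A = q.1
      rw [above_union_left hAB hq.1 hq.2 (Finset.Subset.refl _), above_cl_self hq.1]
    · show above P (q.1 ∪ q.2) B = q.2
      rw [Finset.union_comm, above_union_left hAB.symm hq.2 hq.1 (Finset.Subset.refl _), above_cl_self hq.2]
  · intro V hV
    simp only [Finset.mem_filter, Finset.mem_univ, true_and] at hV
    congr 1
    ext a
    simp only [above, Finset.mem_union, Finset.mem_filter]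
    constructor
    · intro ha
      have : P.N.up a ∈ A ∪ B := by rw [← hV]; exact Finset.mem_image_of_mem _ ha
      rcases Finset.mem_union.1 this with h | h
      · exact Or.inl ⟨ha, h⟩
      · exact Or.inr ⟨ha, h⟩
    · rintro (h | h) <;> exact h.1

variable (P)

/-- the multiplicative function behind `Ktil` -/
noncomputable def W1 (e : Finset P.g.I → 𝔸) (V' : Finset P.g'.I) : 𝔸 :=
  ∑ V ∈ Finset.univ.filter (fun V : Finset P.g.I => P.N.cl V = V'), e V

variable {P}

theorem W1_mul (e : Finset P.g.I → 𝔸)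
    (hfac : ∀ V : Finset P.g.I, e V = ∏ Y ∈ P.g'.comps r (P.N.cl V), e (above P V Y))
    (A B : Finset P.g'.I) (h : P.g'.Sep r A B) : W1 P e (A ∪ B) = W1 P e A * W1 P e B := by
  have hd := sep_disjoint h
  unfold W1
  rw [sum_cl_union A B hd, Finset.sum_mul_sum]
  refine Finset.sum_congr rfl fun V1 h1 => Finset.sum_congr rfl fun V2 h2 => ?_
  simp only [Finset.mem_filter, Finset.mem_univ, true_and] at h1 h2
  rw [hfac (V1 ∪ V2), cl_union, h1, h2, prod_comps_union _ h, hfac V1, hfac V2, h1, h2]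
  congr 1
  · refine Finset.prod_congr rfl fun Y hY => ?_
    rw [above_union_left hd h1 h2 (comps_subset hY)]
  · refine Finset.prod_congr rfl fun Y hY => ?_
    rw [Finset.union_comm, above_union_left hd.symm h2 h1 (comps_subset hY)]

theorem W1_empty (e : Finset P.g.I → 𝔸)
    (hfac : ∀ V : Finset P.g.I, e V = ∏ Y ∈ P.g'.comps r (P.N.cl V), e (above P V Y)) : W1 P e ∅ = 1 := by
  have h0 : Finset.univ.filter (fun V : Finset P.g.I => P.N.cl V = ∅) = {∅} := by
    ext V
    simp [Nest.cl]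
  unfold W1
  rw [h0, Finset.sum_singleton, hfac ∅]
  simp [Nest.cl, comps_empty]

theorem W1_mul' {𝔹 : Type} [CommRing 𝔹] (e : Finset P.g.I → 𝔹)
    (hfac : ∀ V : Finset P.g.I, e V = ∏ Y ∈ P.g'.comps r (P.N.cl V), e (above P V Y))
    (A B : Finset P.g'.I) (h : P.g'.Sep r A B) : W1 P e (A ∪ B) = W1 P e A * W1 P e B := by
  have hd := sep_disjoint h
  unfold W1
  rw [sum_cl_union A B hd, Finset.sum_mul_sum]
  refine Finset.sum_congr rfl fun V1 h1 => Finset.sum_congr rfl fun V2 h2 => ?_
  simp only [Finset.mem_filter, Finset.mem_univ, true_and] at h1 h2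
  rw [hfac (V1 ∪ V2), cl_union, h1, h2, prod_comps_union _ h, hfac V1, hfac V2, h1, h2]
  congr 1
  · refine Finset.prod_congr rfl fun Y hY => ?_
    rw [above_union_left hd h1 h2 (comps_subset hY)]
  · refine Finset.prod_congr rfl fun Y hY => ?_
    rw [Finset.union_comm, above_union_left hd.symm h2 h1 (comps_subset hY)]

theorem W1_empty' {𝔹 : Type} [CommRing 𝔹] (e : Finset P.g.I → 𝔹)
    (hfac : ∀ V : Finset P.g.I, e V = ∏ Y ∈ P.g'.comps r (P.N.cl V), e (above P V Y)) : W1 P e ∅ = 1 := by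
  have h0 : Finset.univ.filter (fun V : Finset P.g.I => P.N.cl V = ∅) = {∅} := by
    ext V
    simp [Nest.cl]
  unfold W1
  rw [h0, Finset.sum_singleton, hfac ∅]
  simp [Nest.cl, comps_empty]

/-- **P4.8, algebra, step 1** -/
theorem exact_step1 (P : Pair G D0 ℓ) (r R : ℕ) (E : 𝔸 → 𝔸) (K : Finset P.g.I → 𝔸)
    (hsum : E (ZA P.g R K) = ∑ V : Finset P.g.I, E (∏ X ∈ P.g.comps R V, K X))
    (hfac : ∀ V : Finset P.g.I, E (∏ X ∈ P.g.comps R V, K X)
      = ∏ Y ∈ P.g'.comps r (P.N.cl V), E (∏ X ∈ P.g.comps R (V.filter fun a => P.N.up a ∈ Y), K X)) :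
    E (ZA P.g R K) = ZA P.g' r (Ktil P r R E K) := by
  set e : Finset P.g.I → 𝔸 := fun V => E (∏ X ∈ P.g.comps R V, K X) with he
  have hfac' : ∀ V : Finset P.g.I, e V = ∏ Y ∈ P.g'.comps r (P.N.cl V), e (above P V Y) := hfac
  rw [ZA_of_mult (Ktil P r R E K) (W1 P e) (W1_empty r e hfac') (W1_mul r e hfac') ?_, hsum]
  · unfold W1
    exact (Finset.sum_fiberwise Finset.univ (fun V : Finset P.g.I => P.N.cl V) e).symm
  · intro Y hY
    unfold Ktil W1
    rw [if_pos hY]

/-- **P4.8, algebra, step 1, evaluated form**: the hypotheses are only needed after a ring homomorphism `φ` (evaluation at one field `z` in the strip: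
outside the strips the activities are junk and `E` need not be additive). -/
theorem exact_step1_hom {𝔹 : Type} [CommRing 𝔹] (φ : 𝔸 →+* 𝔹) (P : Pair G D0 ℓ) (r R : ℕ) (E : 𝔸 → 𝔸) (K : Finset P.g.I → 𝔸)
    (hsum : φ (E (ZA P.g R K)) = ∑ V : Finset P.g.I, φ (E (∏ X ∈ P.g.comps R V, K X)))
    (hfac : ∀ V : Finset P.g.I, φ (E (∏ X ∈ P.g.comps R V, K X))
      = ∏ Y ∈ P.g'.comps r (P.N.cl V), φ (E (∏ X ∈ P.g.comps R (V.filter fun a => P.N.up a ∈ Y), K X))) :
    φ (E (ZA P.g R K)) = φ (ZA P.g' r (Ktil P r R E K)) := by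
  set e : Finset P.g.I → 𝔹 := fun V => φ (E (∏ X ∈ P.g.comps R V, K X)) with he
  have hfac' : ∀ V : Finset P.g.I, e V = ∏ Y ∈ P.g'.comps r (P.N.cl V), e (above P V Y) := hfac
  have h1 : φ (ZA P.g' r (Ktil P r R E K)) = ZA P.g' r (fun Y => φ (Ktil P r R E K Y)) := by
    unfold ZA
    rw [map_sum]
    exact Finset.sum_congr rfl fun V _ => map_prod φ _ _
  rw [h1, ZA_of_mult (fun Y => φ (Ktil P r R E K Y)) (W1 P e) (W1_empty' r e hfac') (W1_mul' r e hfac') ?_, hsum]
  · unfold W1
    exact (Finset.sum_fiberwise Finset.univ (fun V : Finset P.g.I => P.N.cl V) e).symm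
  · intro Y hY
    unfold Ktil W1
    rw [if_pos hY, map_sum]

end Claimed.Agent.R285.Alg
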