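import Claimed.Agent.R285.Alg.Comps

/-!
# ROW 285, package PK-ALG, file 4: step 2 of [B] P4.8 (relocation of the designated pieces)      (helper165)

`om W T = ∏_{Y ∈ Comp_r W} obj (T, Y)`.  (A) `∑_{T ⊆ W} om W T = ∏ K̃ (Y)`.  (B) `W2 V = ∑_{(W,T) : supp = V} om W T` is `R`-multiplicative: configurations of non-zero weight are
`Good` (marked components have index diameter `≤ 1`), so `W` lies in the 1-neighbourhood of its new support; `r + 2 < R`.
-/

set_option autoImplicit false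

namespace Claimed.Agent.R285.Alg

open scoped BigOperators
open Claimed.Agent.R285.RG
open Classical

variable {G : Geom} {g : Grid G} {r R : ℕ} {𝔸 : Type} [CommRing 𝔸] [Algebra ℂ 𝔸]

/-- the weight of a marked configuration -/
noncomputable def om (r : ℕ) (Kt : Finset g.I → 𝔸) (d : Desig g 𝔸) (W T : Finset g.I) : 𝔸 :=
  ∏ Y ∈ g.comps r W, tempObj g Kt d T Y

/-- marked components are small -/
def Good (r : ℕ) (W T : Finset g.I) : Prop := ∀ Y ∈ g.comps r W, Y ∩ T ≠ ∅ → g.idiam Y ≤ 1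

theorem tempObj_congr (Kt : Finset g.I → 𝔸) (d : Desig g 𝔸) {T T' Y : Finset g.I} (h : Y ∩ T = Y ∩ T') :
    tempObj g Kt d T Y = tempObj g Kt d T' Y := by
  unfold tempObj
  rw [h]

theorem inter_union_left_of {W1 W2 T1 T2 Y : Finset g.I} (hd : Disjoint W1 W2) (hY : Y ⊆ W1) (hT2 : T2 ⊆ W2) :
    Y ∩ (T1 ∪ T2) = Y ∩ T1 := by
  rw [Finset.inter_union_distrib_left]
  have : Y ∩ T2 = ∅ := Finset.disjoint_iff_inter_eq_empty.1 (Finset.disjoint_of_subset_left hY (Finset.disjoint_of_subset_right hT2 hd))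
  rw [this, Finset.union_empty]

theorem inter_union_right_of {W1 W2 T1 T2 Y : Finset g.I} (hd : Disjoint W1 W2) (hY : Y ⊆ W2) (hT1 : T1 ⊆ W1) :
    Y ∩ (T1 ∪ T2) = Y ∩ T2 := by
  rw [Finset.union_comm]
  exact inter_union_left_of hd.symm hY hT1

theorem om_union (Kt : Finset g.I → 𝔸) (d : Desig g 𝔸) {W1 W2 T1 T2 : Finset g.I} (h : g.Sep r W1 W2) (h1 : T1 ⊆ W1)
    (h2 : T2 ⊆ W2) : om r Kt d (W1 ∪ W2) (T1 ∪ T2) = om r Kt d W1 T1 * om r Kt d W2 T2 := by
  have hd := sep_disjoint h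
  unfold om
  rw [prod_comps_union _ h]
  congr 1
  · exact Finset.prod_congr rfl fun Y hY => tempObj_congr Kt d (inter_union_left_of hd (comps_subset hY) h2)
  · exact Finset.prod_congr rfl fun Y hY => tempObj_congr Kt d (inter_union_right_of hd (comps_subset hY) h1)

theorem newSupp_union {W1 W2 T1 T2 : Finset g.I} (h : g.Sep r W1 W2) (h1 : T1 ⊆ W1) (h2 : T2 ⊆ W2) :
    newSupp r g (W1 ∪ W2) (T1 ∪ T2) = newSupp r g W1 T1 ∪ newSupp r g W2 T2 := by
  have hd := sep_disjoint h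
  unfold newSupp
  rw [comps_union h, Finset.filter_union, Finset.union_biUnion, Finset.union_union_union_comm]
  have e1 : (g.comps r W1).filter (fun Y => Y ∩ (T1 ∪ T2) = ∅) = (g.comps r W1).filter (fun Y => Y ∩ T1 = ∅) := by
    refine Finset.filter_congr fun Y hY => ?_
    rw [inter_union_left_of hd (comps_subset hY) h2]
  have e2 : (g.comps r W2).filter (fun Y => Y ∩ (T1 ∪ T2) = ∅) = (g.comps r W2).filter (fun Y => Y ∩ T2 = ∅) := by
    refine Finset.filter_congr fun Y hY => ?_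
    rw [inter_union_right_of hd (comps_subset hY) h1]
  rw [e1, e2]

theorem good_union {W1 W2 T1 T2 : Finset g.I} (h : g.Sep r W1 W2) (h1 : T1 ⊆ W1) (h2 : T2 ⊆ W2) :
    Good r (W1 ∪ W2) (T1 ∪ T2) ↔ Good r W1 T1 ∧ Good r W2 T2 := by
  have hd := sep_disjoint h
  unfold Good
  rw [comps_union h]
  constructor
  · intro H
    constructor
    · intro Y hY hne
      exact H Y (Finset.mem_union_left _ hY) (by rwa [inter_union_left_of hd (comps_subset hY) h2])
    · intro Y hY hne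
      exact H Y (Finset.mem_union_right _ hY) (by rwa [inter_union_right_of hd (comps_subset hY) h1])
  · rintro ⟨H1, H2⟩ Y hY hne
    rcases Finset.mem_union.1 hY with hY | hY
    · exact H1 Y hY (by rwa [inter_union_left_of hd (comps_subset hY) h2] at hne)
    · exact H2 Y hY (by rwa [inter_union_right_of hd (comps_subset hY) h1] at hne)

theorem idist_le_idiam {Y : Finset g.I} {a b : g.I} (ha : a ∈ Y) (hb : b ∈ Y) : g.idist a b ≤ g.idiam Y := by
  unfold Grid.idiam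
  exact le_trans (Finset.le_sup (f := fun b => g.idist a b) hb) (Finset.le_sup (f := fun a => Y.sup fun b => g.idist a b) ha)

theorem om_eq_zero (Kt : Finset g.I → 𝔸) (d : Desig g 𝔸) (hd : d.Small r g) {W T : Finset g.I} (h : ¬ Good r W T) :
    om r Kt d W T = 0 := by
  unfold Good at h
  push Not at h
  obtain ⟨Y, hY, hne, hdiam⟩ := h
  unfold om
  apply Finset.prod_eq_zero hY
  unfold tempObj
  rw [if_neg (Finset.nonempty_iff_ne_empty.1 hne)]
  apply Finset.sum_eq_zero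
  intro b _
  rw [hd Y b (fun hc => absurd hc.2.1 (not_le.2 hdiam))]
  simp

theorem newSupp_subset {W T : Finset g.I} (hT : T ⊆ W) : newSupp r g W T ⊆ W := by
  unfold newSupp
  apply Finset.union_subset hT
  intro a ha
  simp only [Finset.mem_biUnion, Finset.mem_filter, id] at ha
  obtain ⟨Y, ⟨hY, _⟩, haY⟩ := ha
  exact comps_subset hY haY

/-- the 1-neighbourhood -/
noncomputable def nb (V : Finset g.I) : Finset g.I := Finset.univ.filter fun a => ∃ b ∈ V, g.idist a b ≤ 1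

theorem mem_nb {V : Finset g.I} {a : g.I} : a ∈ nb V ↔ ∃ b ∈ V, g.idist a b ≤ 1 := by simp [nb]

theorem subset_nb (V : Finset g.I) : V ⊆ nb V := fun a ha => mem_nb.2 ⟨a, ha, by rw [idist_self]; omega⟩

theorem nb_union (V1 V2 : Finset g.I) : nb (V1 ∪ V2) = nb V1 ∪ nb V2 := by
  ext a
  simp only [mem_nb, Finset.mem_union]
  constructor
  · rintro ⟨b, hb | hb, h⟩
    · exact Or.inl ⟨b, hb, h⟩
    · exact Or.inr ⟨b, hb, h⟩
  · rintro (⟨b, hb, h⟩ | ⟨b, hb, h⟩)
    · exact ⟨b, Or.inl hb, h⟩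
    · exact ⟨b, Or.inr hb, h⟩

theorem sep_nb (hrR : r + 2 < R) {V1 V2 : Finset g.I} (h : g.Sep R V1 V2) : g.Sep r (nb V1) (nb V2) := by
  intro a ha b hb
  obtain ⟨a', ha', h1⟩ := mem_nb.1 ha
  obtain ⟨b', hb', h2⟩ := mem_nb.1 hb
  have h3 := h a' ha' b' hb'
  have h4 := idist_triangle g a' a b'
  have h5 := idist_triangle g a b b'
  rw [idist_comm g a' a] at h4
  omega

theorem good_subset_nb {W T : Finset g.I} (hT : T ⊆ W) (hG : Good r W T) : W ⊆ nb (newSupp r g W T) := by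
  intro a ha
  obtain ⟨Y, hY, haY⟩ := comps_cover (R := r) ha
  by_cases hne : Y ∩ T = ∅
  · apply subset_nb
    unfold newSupp
    apply Finset.mem_union_right
    simp only [Finset.mem_biUnion, Finset.mem_filter, id]
    exact ⟨Y, ⟨hY, hne⟩, haY⟩
  · obtain ⟨b, hb⟩ := Finset.nonempty_iff_ne_empty.2 hne
    rw [Finset.mem_inter] at hb
    refine mem_nb.2 ⟨b, ?_, le_trans (idist_le_idiam haY hb.1) (hG Y hY hne)⟩
    unfold newSupp
    exact Finset.mem_union_left _ hb.2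

/-! ### (A) -/

noncomputable def WA (r : ℕ) (Kt : Finset g.I → 𝔸) (d : Desig g 𝔸) (W : Finset g.I) : 𝔸 := ∑ T ∈ W.powerset, om r Kt d W T

theorem WA_empty (Kt : Finset g.I → 𝔸) (d : Desig g 𝔸) : WA r Kt d ∅ = 1 := by
  simp [WA, om, comps_empty]

theorem WA_mul (Kt : Finset g.I → 𝔸) (d : Desig g 𝔸) (W1 W2 : Finset g.I) (h : g.Sep r W1 W2) :
    WA r Kt d (W1 ∪ W2) = WA r Kt d W1 * WA r Kt d W2 := by
  unfold WA
  rw [sum_powerset_union W1 W2 (sep_disjoint h), Finset.sum_mul_sum]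
  refine Finset.sum_congr rfl fun T1 h1 => Finset.sum_congr rfl fun T2 h2 => ?_
  exact om_union Kt d h (Finset.mem_powerset.1 h1) (Finset.mem_powerset.1 h2)

theorem WA_conn (Kt : Finset g.I → 𝔸) (d : Desig g 𝔸) (Y : Finset g.I) (hY : g.Conn r Y) : Kt Y = WA r Kt d Y := by
  unfold WA om
  simp_rw [comps_self hY, Finset.prod_singleton]
  have h1 : ∀ T ∈ Y.powerset, tempObj g Kt d T Y
      = (if T = ∅ then Kt Y - ∑ b ∈ Y, d.F Y b else 0) + ∑ b ∈ Y, if T = {b} then d.F Y b else 0 := by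
    intro T hT
    have hYT : Y ∩ T = T := Finset.inter_eq_right.2 (Finset.mem_powerset.1 hT)
    unfold tempObj
    rw [hYT]
    by_cases h0 : T = ∅
    · subst h0
      have : ∀ b ∈ Y, (if (∅ : Finset g.I) = {b} then d.F Y b else 0) = 0 := by
        intro b _
        rw [if_neg (Finset.singleton_ne_empty b).symm]
      rw [if_pos rfl, if_pos rfl, Finset.sum_eq_zero this, add_zero]
    · rw [if_neg h0, if_neg h0, zero_add]
  rw [Finset.sum_congr rfl h1, Finset.sum_add_distrib, Finset.sum_ite_eq' , if_pos (Finset.empty_mem_powerset Y), Finset.sum_comm]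
  have h2 : ∀ b ∈ Y, ∑ T ∈ Y.powerset, (if T = {b} then d.F Y b else 0) = d.F Y b := by
    intro b hb
    rw [Finset.sum_ite_eq', if_pos (Finset.mem_powerset.2 (Finset.singleton_subset_iff.2 hb))]
  rw [Finset.sum_congr rfl h2]
  ring

/-! ### (B) -/

noncomputable def W2 (r : ℕ) (Kt : Finset g.I → 𝔸) (d : Desig g 𝔸) (V : Finset g.I) : 𝔸 :=
  ∑ W : Finset g.I, ∑ T ∈ W.powerset, if newSupp r g W T = V then om r Kt d W T else 0

theorem Hrel_eq (Kt : Finset g.I → 𝔸) (d : Desig g 𝔸) (Z : Finset g.I) (hZ : g.Conn R Z) :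
    Hrel r R g Kt d Z = W2 r Kt d Z := by
  unfold Hrel W2 om
  rw [if_pos hZ]
  refine Finset.sum_congr rfl fun W _ => ?_
  rw [Finset.sum_filter]

theorem W2_total (Kt : Finset g.I → 𝔸) (d : Desig g 𝔸) : ∑ V : Finset g.I, W2 r Kt d V = ∑ W : Finset g.I, WA r Kt d W := by
  unfold W2 WA
  rw [Finset.sum_comm]
  refine Finset.sum_congr rfl fun W _ => ?_
  rw [Finset.sum_comm]
  refine Finset.sum_congr rfl fun T _ => ?_
  rw [Finset.sum_ite_eq]
  simp

/-- good configurations with a given new support -/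
noncomputable def Cfg (r : ℕ) (V : Finset g.I) : Finset (Finset g.I × Finset g.I) :=
  Finset.univ.filter fun c => c.2 ⊆ c.1 ∧ newSupp r g c.1 c.2 = V ∧ Good r c.1 c.2

theorem mem_Cfg {V : Finset g.I} {c : Finset g.I × Finset g.I} :
    c ∈ Cfg r V ↔ c.2 ⊆ c.1 ∧ newSupp r g c.1 c.2 = V ∧ Good r c.1 c.2 := by simp [Cfg]

theorem W2_eq_cfg (Kt : Finset g.I → 𝔸) (d : Desig g 𝔸) (hd : d.Small r g) (V : Finset g.I) :
    W2 r Kt d V = ∑ c ∈ Cfg r V, om r Kt d c.1 c.2 := by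
  unfold W2 Cfg
  rw [Finset.sum_filter, ← Finset.univ_product_univ, Finset.sum_product]
  refine Finset.sum_congr rfl fun W _ => ?_
  rw [← Finset.sum_subset_zero_on_sdiff (Finset.subset_univ W.powerset) (f := fun T => if newSupp r g W T = V then om r Kt d W T else 0)]
  · intro T hT
    have : ¬ T ⊆ W := fun h => (Finset.mem_sdiff.1 hT).2 (Finset.mem_powerset.2 h)
    rw [if_neg (fun hc => this hc.1)]
  · intro T hT
    have hTW : T ⊆ W := Finset.mem_powerset.1 hT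
    by_cases h1 : newSupp r g W T = V
    · by_cases h2 : Good r W T
      · rw [if_pos h1, if_pos ⟨hTW, h1, h2⟩]
      · rw [if_pos h1, if_neg (fun hc => h2 hc.2.2), om_eq_zero Kt d hd h2]
    · rw [if_neg h1, if_neg (fun hc => h1 hc.2.1)]

theorem W2_empty (Kt : Finset g.I → 𝔸) (d : Desig g 𝔸) (hd : d.Small r g) : W2 r Kt d ∅ = 1 := by
  rw [W2_eq_cfg Kt d hd]
  have : Cfg r (∅ : Finset g.I) = {(∅, ∅)} := by
    ext c
    rw [mem_Cfg, Finset.mem_singleton]
    constructor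
    · rintro ⟨h1, h2, h3⟩
      have hW : c.1 ⊆ nb (∅ : Finset g.I) := by
        rw [← h2]
        exact good_subset_nb h1 h3
      have hW' : c.1 = ∅ := by
        apply Finset.eq_empty_of_forall_notMem
        intro a ha
        obtain ⟨b, hb, _⟩ := mem_nb.1 (hW ha)
        exact absurd hb (Finset.notMem_empty b)
      have hT' : c.2 = ∅ := by
        apply Finset.subset_empty.1
        rw [← hW']
        exact h1
      exact Prod.ext hW' hT'
    · rintro rfl
      refine ⟨Finset.Subset.refl _, ?_, ?_⟩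
      · simp [newSupp, comps_empty]
      · intro Y hY
        simp [comps_empty] at hY
  rw [this, Finset.sum_singleton]
  simp [om, comps_empty]

theorem inter_nb_split {V1 V2 W : Finset g.I} (hW : W ⊆ nb (V1 ∪ V2)) : W = W ∩ nb V1 ∪ W ∩ nb V2 := by
  rw [← Finset.inter_union_distrib_left, ← nb_union]
  exact (Finset.inter_eq_left.2 hW).symm

theorem W2_mul (hrR : r + 2 < R) (Kt : Finset g.I → 𝔸) (d : Desig g 𝔸) (hd : d.Small r g) (V1 V2 : Finset g.I)
    (h : g.Sep R V1 V2) : W2 r Kt d (V1 ∪ V2) = W2 r Kt d V1 * W2 r Kt d V2 := by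
  have hnb := sep_nb hrR h
  have hnbd := sep_disjoint hnb
  rw [W2_eq_cfg Kt d hd, W2_eq_cfg Kt d hd, W2_eq_cfg Kt d hd, Finset.sum_mul_sum, ← Finset.sum_product']
  -- facts about a pair of configurations
  have pair : ∀ q ∈ Cfg r V1 ×ˢ Cfg r V2, q.1.1 ⊆ nb V1 ∧ q.2.1 ⊆ nb V2 := by
    intro q hq
    rw [Finset.mem_product, mem_Cfg, mem_Cfg] at hq
    obtain ⟨⟨a1, a2, a3⟩, b1, b2, b3⟩ := hq
    exact ⟨by rw [← a2]; exact good_subset_nb a1 a3, by rw [← b2]; exact good_subset_nb b1 b3⟩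
  -- facts about a configuration on the union
  have split : ∀ c ∈ Cfg r (V1 ∪ V2), c.1 = c.1 ∩ nb V1 ∪ c.1 ∩ nb V2 ∧ c.2 = c.2 ∩ nb V1 ∪ c.2 ∩ nb V2 := by
    intro c hc
    rw [mem_Cfg] at hc
    obtain ⟨a1, a2, a3⟩ := hc
    have hW : c.1 ⊆ nb (V1 ∪ V2) := by rw [← a2]; exact good_subset_nb a1 a3
    exact ⟨inter_nb_split hW, inter_nb_split (a1.trans hW)⟩
  refine Finset.sum_nbij' (fun c => ((c.1 ∩ nb V1, c.2 ∩ nb V1), (c.1 ∩ nb V2, c.2 ∩ nb V2)))
    (fun q => (q.1.1 ∪ q.2.1, q.1.2 ∪ q.2.2)) ?_ ?_ ?_ ?_ ?_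
  · intro c hc
    obtain ⟨s1, s2⟩ := split c hc
    rw [mem_Cfg] at hc
    obtain ⟨a1, a2, a3⟩ := hc
    have hsep : g.Sep r (c.1 ∩ nb V1) (c.1 ∩ nb V2) := sep_mono hnb Finset.inter_subset_right Finset.inter_subset_right
    have t1 : c.2 ∩ nb V1 ⊆ c.1 ∩ nb V1 := Finset.inter_subset_inter_right a1
    have t2 : c.2 ∩ nb V2 ⊆ c.1 ∩ nb V2 := Finset.inter_subset_inter_right a1
    rw [s1, s2, newSupp_union hsep t1 t2] at a2
    rw [s1, s2, good_union hsep t1 t2] at a3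
    have S1 : newSupp r g (c.1 ∩ nb V1) (c.2 ∩ nb V1) ⊆ nb V1 := (newSupp_subset t1).trans Finset.inter_subset_right
    have S2 : newSupp r g (c.1 ∩ nb V2) (c.2 ∩ nb V2) ⊆ nb V2 := (newSupp_subset t2).trans Finset.inter_subset_right
    have e1 : newSupp r g (c.1 ∩ nb V1) (c.2 ∩ nb V1) = V1 := by
      apply Finset.Subset.antisymm
      · intro a ha
        have : a ∈ V1 ∪ V2 := by rw [← a2]; exact Finset.mem_union_left _ ha
        rcases Finset.mem_union.1 this with h' | h'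
        · exact h'
        · exact absurd (subset_nb V2 h') (Finset.disjoint_left.1 hnbd (S1 ha))
      · intro a ha
        have : a ∈ newSupp r g (c.1 ∩ nb V1) (c.2 ∩ nb V1) ∪ newSupp r g (c.1 ∩ nb V2) (c.2 ∩ nb V2) := by
          rw [a2]; exact Finset.mem_union_left _ ha
        rcases Finset.mem_union.1 this with h' | h'
        · exact h'
        · exact absurd (S2 h') (Finset.disjoint_left.1 hnbd (subset_nb V1 ha))
    have e2 : newSupp r g (c.1 ∩ nb V2) (c.2 ∩ nb V2) = V2 := by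
      apply Finset.Subset.antisymm
      · intro a ha
        have : a ∈ V1 ∪ V2 := by rw [← a2]; exact Finset.mem_union_right _ ha
        rcases Finset.mem_union.1 this with h' | h'
        · exact absurd (S2 ha) (Finset.disjoint_left.1 hnbd (subset_nb V1 h'))
        · exact h'
      · intro a ha
        have : a ∈ newSupp r g (c.1 ∩ nb V1) (c.2 ∩ nb V1) ∪ newSupp r g (c.1 ∩ nb V2) (c.2 ∩ nb V2) := by
          rw [a2]; exact Finset.mem_union_right _ ha
        rcases Finset.mem_union.1 this with h' | h'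
        · exact absurd (subset_nb V2 ha) (Finset.disjoint_left.1 hnbd (S1 h'))
        · exact h'
    rw [Finset.mem_product, mem_Cfg, mem_Cfg]
    exact ⟨⟨t1, e1, a3.1⟩, t2, e2, a3.2⟩
  · intro q hq
    obtain ⟨n1, n2⟩ := pair q hq
    rw [Finset.mem_product, mem_Cfg, mem_Cfg] at hq
    obtain ⟨⟨a1, a2, a3⟩, b1, b2, b3⟩ := hq
    have hsep : g.Sep r q.1.1 q.2.1 := sep_mono hnb n1 n2
    rw [mem_Cfg]
    refine ⟨Finset.union_subset_union a1 b1, ?_, (good_union hsep a1 b1).2 ⟨a3, b3⟩⟩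
    show newSupp r g (q.1.1 ∪ q.2.1) (q.1.2 ∪ q.2.2) = V1 ∪ V2
    rw [newSupp_union hsep a1 b1, a2, b2]
  · intro c hc
    obtain ⟨s1, s2⟩ := split c hc
    exact Prod.ext s1.symm s2.symm
  · intro q hq
    obtain ⟨n1, n2⟩ := pair q hq
    rw [Finset.mem_product, mem_Cfg, mem_Cfg] at hq
    obtain ⟨⟨a1, a2, a3⟩, b1, b2, b3⟩ := hq
    have k : ∀ (A B N1 N2 : Finset g.I), Disjoint N1 N2 → A ⊆ N1 → B ⊆ N2 → (A ∪ B) ∩ N1 = A := by
      intro A B N1 N2 hN hA hB
      rw [Finset.union_inter_distrib_right, Finset.inter_eq_left.2 hA,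
        Finset.disjoint_iff_inter_eq_empty.1 (Finset.disjoint_of_subset_left hB hN.symm), Finset.union_empty]
    have k' : ∀ (A B N1 N2 : Finset g.I), Disjoint N1 N2 → A ⊆ N1 → B ⊆ N2 → (A ∪ B) ∩ N2 = B := by
      intro A B N1 N2 hN hA hB
      rw [Finset.union_comm]
      exact k B A N2 N1 hN.symm hB hA
    refine Prod.ext (Prod.ext ?_ ?_) (Prod.ext ?_ ?_)
    · exact k _ _ _ _ hnbd n1 n2
    · exact k _ _ _ _ hnbd (a1.trans n1) (b1.trans n2)
    · exact k' _ _ _ _ hnbd n1 n2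
    · exact k' _ _ _ _ hnbd (a1.trans n1) (b1.trans n2)
  · intro c hc
    obtain ⟨s1, s2⟩ := split c hc
    rw [mem_Cfg] at hc
    obtain ⟨a1, -, -⟩ := hc
    have hsep : g.Sep r (c.1 ∩ nb V1) (c.1 ∩ nb V2) := sep_mono hnb Finset.inter_subset_right Finset.inter_subset_right
    have t1 : c.2 ∩ nb V1 ⊆ c.1 ∩ nb V1 := Finset.inter_subset_inter_right a1
    have t2 : c.2 ∩ nb V2 ⊆ c.1 ∩ nb V2 := Finset.inter_subset_inter_right a1
    show om r Kt d c.1 c.2 = om r Kt d (c.1 ∩ nb V1) (c.2 ∩ nb V1) * om r Kt d (c.1 ∩ nb V2) (c.2 ∩ nb V2)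
    rw [← om_union Kt d hsep t1 t2, ← s1, ← s2]

/-- **P4.8, algebra, step 2** -/
theorem exact_step2 (r R : ℕ) (g' : Grid G) (hrR : r + 2 < R) (Kt : Finset g'.I → 𝔸) (d : Desig g' 𝔸) (hd : d.Small r g') :
    ZA g' r Kt = ZA g' R (Hrel r R g' Kt d) := by
  rw [ZA_of_mult Kt (WA r Kt d) (WA_empty Kt d) (WA_mul Kt d) (WA_conn Kt d),
    ZA_of_mult (Hrel r R g' Kt d) (W2 r Kt d) (W2_empty Kt d hd) (W2_mul hrR Kt d hd) (Hrel_eq Kt d), W2_total]

end Claimed.Agent.R285.Alg
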