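import Claimed.Agent.R285.Alg.Comps

/-!
# ROW 285, package PK-ALG, file 2: step 3 of [B] P4.8 (extraction of constants)      (helper165)
-/

set_option autoImplicit false

namespace Claimed.Agent.R285.Alg

open scoped BigOperators
open Claimed.Agent.R285.RG
open Classical

variable {G : Geom} {g : Grid G} {R : ℕ} {𝔸 : Type} [CommRing 𝔸] [Algebra ℂ 𝔸]

/-- sums over pairs of subsets of a disjoint union -/
theorem sum_powerset_union₂ {J : Type} [DecidableEq J] {M : Type} [AddCommMonoid M] (A B : Finset J) (hAB : Disjoint A B)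
    (f : Finset J → Finset J → M) :
    ∑ Z ∈ (A ∪ B).powerset, ∑ T ∈ (A ∪ B).powerset, f Z T
      = ∑ Z1 ∈ A.powerset, ∑ T1 ∈ A.powerset, ∑ Z2 ∈ B.powerset, ∑ T2 ∈ B.powerset, f (Z1 ∪ Z2) (T1 ∪ T2) := by
  rw [sum_powerset_union A B hAB]
  refine Finset.sum_congr rfl fun Z1 _ => ?_
  have : ∀ Z2 ∈ B.powerset, ∑ T ∈ (A ∪ B).powerset, f (Z1 ∪ Z2) T
      = ∑ T1 ∈ A.powerset, ∑ T2 ∈ B.powerset, f (Z1 ∪ Z2) (T1 ∪ T2) :=
    fun Z2 _ => sum_powerset_union A B hAB _
  rw [Finset.sum_congr rfl this, Finset.sum_comm]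

/-- the multiplicative function behind `Kext` -/
noncomputable def W3 (g : Grid G) (R : ℕ) (H : Finset g.I → 𝔸) (dec : g.I → ℂ) (V : Finset g.I) : 𝔸 :=
  ∑ Z ∈ V.powerset, ∑ T ∈ V.powerset, if Z ∪ T = V then (∏ b ∈ T, dec b) • ∏ X ∈ g.comps R Z, H X else 0

theorem Kext_eq (H : Finset g.I → 𝔸) (d : Desig g 𝔸) (Y : Finset g.I) (hY : g.Conn R Y) :
    Kext R g H d Y = W3 g R H (fun b => (1 + d.a b)⁻¹ - 1) Y := by
  unfold Kext W3
  rw [if_pos hY]
  refine Finset.sum_congr rfl fun Z _ => ?_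
  rw [Finset.sum_filter]

theorem W3_empty (H : Finset g.I → 𝔸) (dec : g.I → ℂ) : W3 g R H dec ∅ = 1 := by
  simp [W3, comps_empty]

theorem union_eq_union_iff {J : Type} [DecidableEq J] {A B Z1 Z2 T1 T2 : Finset J} (hAB : Disjoint A B)
    (hZ1 : Z1 ⊆ A) (hT1 : T1 ⊆ A) (hZ2 : Z2 ⊆ B) (hT2 : T2 ⊆ B) :
    (Z1 ∪ Z2) ∪ (T1 ∪ T2) = A ∪ B ↔ Z1 ∪ T1 = A ∧ Z2 ∪ T2 = B := by
  constructor
  · intro h
    constructor
    · apply Finset.Subset.antisymm (Finset.union_subset hZ1 hT1)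
      intro a ha
      have : a ∈ (Z1 ∪ Z2) ∪ (T1 ∪ T2) := by rw [h]; exact Finset.mem_union_left _ ha
      have hB : a ∉ B := Finset.disjoint_left.1 hAB ha
      simp only [Finset.mem_union] at this ⊢
      rcases this with (h | h) | (h | h)
      · exact Or.inl h
      · exact absurd (hZ2 h) hB
      · exact Or.inr h
      · exact absurd (hT2 h) hB
    · apply Finset.Subset.antisymm (Finset.union_subset hZ2 hT2)
      intro a ha
      have : a ∈ (Z1 ∪ Z2) ∪ (T1 ∪ T2) := by rw [h]; exact Finset.mem_union_right _ ha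
      have hA : a ∉ A := Finset.disjoint_right.1 hAB ha
      simp only [Finset.mem_union] at this ⊢
      rcases this with (h | h) | (h | h)
      · exact absurd (hZ1 h) hA
      · exact Or.inl h
      · exact absurd (hT1 h) hA
      · exact Or.inr h
  · rintro ⟨h1, h2⟩
    rw [← h1, ← h2]
    ext a
    simp only [Finset.mem_union]
    tauto

theorem W3_mul (H : Finset g.I → 𝔸) (dec : g.I → ℂ) (V1 V2 : Finset g.I) (h : g.Sep R V1 V2) :
    W3 g R H dec (V1 ∪ V2) = W3 g R H dec V1 * W3 g R H dec V2 := by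
  have hd := sep_disjoint h
  unfold W3
  rw [sum_powerset_union₂ V1 V2 hd, Finset.sum_mul]
  refine Finset.sum_congr rfl fun Z1 hZ1 => ?_
  rw [Finset.sum_mul]
  refine Finset.sum_congr rfl fun T1 hT1 => ?_
  rw [Finset.mul_sum]
  refine Finset.sum_congr rfl fun Z2 hZ2 => ?_
  rw [Finset.mul_sum]
  refine Finset.sum_congr rfl fun T2 hT2 => ?_
  rw [Finset.mem_powerset] at hZ1 hT1 hZ2 hT2
  have hiff := union_eq_union_iff hd hZ1 hT1 hZ2 hT2
  by_cases h1 : Z1 ∪ T1 = V1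
  · by_cases h2 : Z2 ∪ T2 = V2
    · rw [if_pos (hiff.2 ⟨h1, h2⟩), if_pos h1, if_pos h2,
        Finset.prod_union (Finset.disjoint_of_subset_left hT1 (Finset.disjoint_of_subset_right hT2 hd)),
        prod_comps_union _ (sep_mono h hZ1 hZ2), smul_mul_smul_comm]
    · rw [if_neg (fun hc => h2 (hiff.1 hc).2), if_neg h2, mul_zero]
  · rw [if_neg (fun hc => h1 (hiff.1 hc).1), if_neg h1, zero_mul]

theorem W3_total (H : Finset g.I → 𝔸) (dec : g.I → ℂ) :
    ∑ V : Finset g.I, W3 g R H dec V = (∏ b : g.I, (1 + dec b)) • ZA g R H := by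
  have h1 : ∀ V : Finset g.I, W3 g R H dec V
      = ∑ Z : Finset g.I, ∑ T : Finset g.I, if Z ∪ T = V then (∏ b ∈ T, dec b) • ∏ X ∈ g.comps R Z, H X else 0 := by
    intro V
    unfold W3
    apply Finset.sum_subset_zero_on_sdiff (Finset.subset_univ _)
    · intro Z hZ
      apply Finset.sum_eq_zero
      intro T _
      rw [if_neg]
      rintro rfl
      exact (Finset.mem_sdiff.1 hZ).2 (Finset.mem_powerset.2 Finset.subset_union_left)
    · intro Z _
      apply Finset.sum_subset_zero_on_sdiff (Finset.subset_univ _)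
      · intro T hT
        rw [if_neg]
        rintro rfl
        exact (Finset.mem_sdiff.1 hT).2 (Finset.mem_powerset.2 Finset.subset_union_right)
      · intro T _
        rfl
  simp_rw [h1]
  rw [Finset.sum_comm]
  have h2 : ∀ Z : Finset g.I, ∑ V : Finset g.I, ∑ T : Finset g.I,
      (if Z ∪ T = V then (∏ b ∈ T, dec b) • ∏ X ∈ g.comps R Z, H X else 0)
      = (∑ T : Finset g.I, ∏ b ∈ T, dec b) • ∏ X ∈ g.comps R Z, H X := by
    intro Z
    rw [Finset.sum_comm, Finset.sum_smul]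
    refine Finset.sum_congr rfl fun T _ => ?_
    rw [Finset.sum_ite_eq]
    simp
  simp_rw [h2]
  rw [← Finset.smul_sum, Finset.prod_one_add]
  simp [ZA]

/-- **P4.8, algebra, step 3** -/
theorem exact_step3 (g' : Grid G) (R : ℕ) (H : Finset g'.I → 𝔸) (d : Desig g' 𝔸) (hd : ∀ b, 1 + d.a b ≠ 0) :
    ZA g' R H = (∏ b : g'.I, (1 + d.a b)) • ZA g' R (Kext R g' H d) := by
  rw [ZA_of_mult (Kext R g' H d) (W3 g' R H fun b => (1 + d.a b)⁻¹ - 1) (W3_empty _ _) (W3_mul _ _)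
    (fun Y hY => Kext_eq H d Y hY), W3_total, smul_smul, ← Finset.prod_mul_distrib]
  have : ∀ b : g'.I, (1 + d.a b) * (1 + ((1 + d.a b)⁻¹ - 1)) = 1 := by
    intro b
    rw [add_sub_cancel, mul_inv_cancel₀ (hd b)]
  rw [Finset.prod_congr rfl fun b _ => this b]
  simp

end Claimed.Agent.R285.Alg
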